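import Vale.Agent.P181.Bdl.B2

set_option autoImplicit false

open scoped TensorProduct
open Vale.Agent.P181

universe u

namespace Vale.Agent.Results.P181.QuadraticRange

/-- **Foulkes' conjecture for `b ≥ (a-1)^2`.**  If `(a-1)^2 ≤ b` then, for every finite-dimensional
complex vector space `V`, the canonical (Foulkes-Howe) map
`Sym^a(Sym^b V) → Sym^b(Sym^a V)` (arrange the `ab` vectors in `a` rows of length `b`, permute
within rows, multiply along columns) is `GL(V)`-equivariant and injective. -/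
theorem result (a b : ℕ) (hab : (a - 1) ^ 2 ≤ b)
    (V : Type u) [AddCommGroup V] [Module ℂ V] [FiniteDimensional ℂ V] :
    ∃ Ψ : Sym[ℂ]^a (Sym[ℂ]^b V) →ₗ[ℂ] Sym[ℂ]^b (Sym[ℂ]^a V),
      (∀ v : Fin a → Fin b → V,
        Ψ (SymmetricPower.tprod ℂ (fun i => SymmetricPower.tprod ℂ (fun j => v i j))) =
          ∑ σ : Fin a → Equiv.Perm (Fin b),
            SymmetricPower.tprod ℂ (fun j => SymmetricPower.tprod ℂ (fun i => v i (σ i j)))) ∧
      (∀ g : V →ₗ[ℂ] V, Ψ ∘ₗ symMap a (symMap b g) = symMap b (symMap a g) ∘ₗ Ψ) ∧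
      Function.Injective Ψ :=
  ⟨foulkesHowe a b V, foulkesHowe_tprod a b, foulkesHowe_equivariant a b,
    foulkesHowe_injective hab⟩

end Vale.Agent.Results.P181.QuadraticRange
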